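import Vale.Agent.P254.H657.Iface

/-!
P254 / P248, equality case, block E1 (helper325): limit passage from the nice measures to
`limDens (t • 1) c C`.
-/

open MeasureTheory Set Matrix Filter Topology

namespace Vale.Agent.P254.Eq325

open R304 Eq657
open L (Mat Ten NN N3 frT Vec)

variable {n : ℕ}

lemma T3_smul {s : ℝ} (hs : s ≠ 0) (f : (Fin n → ℝ) → ℝ) : T3 (fun x => s * f x) = T3 f := by
  funext i j k
  unfold T3
  simp only [Ef_smul hs]

lemma covF_symm (f : (Fin n → ℝ) → ℝ) (i j : Fin n) : covF f i j = covF f j i := by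
  unfold covF
  simp only [of_apply]
  have : (fun x : Fin n → ℝ => x i * x j) = fun x => x j * x i := by
    funext x; ring
  rw [this]
  ring

lemma covF_isHermitian (f : (Fin n → ℝ) → ℝ) : (covF f).IsHermitian := by
  ext i j
  simp only [conjTranspose_apply, star_trivial]
  exact covF_symm f j i

/-- the nice densities of the approximation -/
noncomputable abbrev nd (t : ℝ) (c : Fin n → ℝ) (K : ℕ → Set (Fin n → ℝ)) (s : ℕ → ℝ) (k : ℕ) :
    (Fin n → ℝ) → ℝ := fun x => tilt ((t + s k) • (1 : Mat n)) c x * nice (K k) (s k) (s k) x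

/-- the approximation package -/
theorem approx {C : Set (Fin n → ℝ)} {c : Fin n → ℝ} {a b : ℝ} (hA : Adm C c a b) {t : ℝ}
    (ht : 0 < t) :
    ∃ (K : ℕ → Set (Fin n → ℝ)) (s : ℕ → ℝ), (∀ k, IsCompact (K k)) ∧
      (∀ k, StrictConvex ℝ (K k)) ∧ (∀ k, (interior (K k)).Nonempty) ∧ (∀ k, 0 < s k) ∧
      Tendsto s atTop (𝓝 0) ∧
      Tendsto (fun k => covF (nd t c K s k)) atTop (𝓝 (covF (limDens (t • (1 : Mat n)) c C))) ∧
      Tendsto (fun k => T3 (nd t c K s k)) atTop (𝓝 (T3 (limDens (t • (1 : Mat n)) c C))) ∧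
      Tendsto (fun k => DD (nd t c K s k)) atTop (𝓝 (DD (limDens (t • (1 : Mat n)) c C))) := by
  have hB : (t • (1 : Mat n)).PosSemidef := PosSemidef.one.smul ht.le
  obtain ⟨K, s, M, hK1, hK2, hK3, hK4, hs, hs1, hs0, hdom⟩ :=
    exists_dom hB hA.closed hA.convex hA.int hA.ha hA.dec
  have hgood := good_limDens hB hA.closed hA.int hA.ha hA.dec
  have hZ := hgood.mass_pos.ne'
  have e1 : ∀ k, nd t c K s k =
      fun x => GG n (s k) * dens (t • (1 : Mat n)) c (K k) (s k) (s k + s k) x := by
    intro k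
    funext x
    show tilt ((t + s k) • (1 : Mat n)) c x * nice (K k) (s k) (s k) x = _
    rw [dens_eq, mul_inv_cancel_left₀ (GG_pos (hs k)).ne', add_smul]
  refine ⟨K, s, hK1, hK2, hK3, hs, hs0, ?_, ?_, ?_⟩
  · simp only [e1, covF_smul (GG_pos (hs _)).ne']
    exact hdom.tendsto_cov hZ
  · simp only [e1, T3_smul (GG_pos (hs _)).ne']
    have h1 := fun i => hdom.tendsto_Ef hZ (pg_coord (n := n) i)
    have h2 := fun i j => hdom.tendsto_Ef hZ (pg_coord2 (n := n) i j)
    have h3 := fun i j k => hdom.tendsto_Ef hZ ((pg_coord2 (n := n) i j).mul (pg_coord k))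
    refine tendsto_pi_nhds.2 fun i => tendsto_pi_nhds.2 fun j => tendsto_pi_nhds.2 fun k => ?_
    exact ((((h3 i j k).sub ((h2 i j).mul (h1 k))).sub ((h2 i k).mul (h1 j))).sub
      ((h2 j k).mul (h1 i))).add ((((h1 i).mul (h1 j)).mul (h1 k)).const_mul 2)
  · have hDD : ∀ k, DD (nd t c K s k) = DD (dens (t • (1 : Mat n)) c (K k) (s k) (s k + s k)) := by
      intro k
      have hg := good_dens hB hA.closed (hA.int.mono interior_subset) hA.ha hA.dec
        (hK1 k).measurableSet (hK3 k) (hK4 k) (hs k) (hs1 k) (t := s k + s k)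
        (by have := hs k; linarith)
      rw [e1, DD_smul (GG_pos (hs k)) hg.int1 ?_ hg.mass_pos.ne']
      exact ent_integrable a _ hA.ha (by positivity) hg.meas hg.nn hg.le
    simp only [hDD]
    exact hdom.tendsto_DD hZ hgood.det_pos.ne'

/-- small perturbations of a positive semidefinite matrix -/
theorem eventually_psd {A : ℕ → Mat n} {A0 : Mat n} (hA : Tendsto A atTop (𝓝 A0))
    (hH : ∀ k, (A k).IsHermitian) (h0 : A0.PosSemidef) {η : ℝ} (hη : 0 < η) :
    ∀ᶠ k in atTop, (η • (1 : Mat n) + A k).PosSemidef := by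
  have hent : ∀ i j, ∀ᶠ k in atTop, |A k i j - A0 i j| < η / (n + 1) := by
    intro i j
    have h1 : Tendsto (fun k => A k i j) atTop (𝓝 (A0 i j)) :=
      tendsto_pi_nhds.1 (tendsto_pi_nhds.1 hA i) j
    have h2 := Metric.tendsto_nhds.1 h1 (η / (n + 1)) (by positivity)
    simpa [Real.dist_eq] using h2
  have hall : ∀ᶠ k in atTop, ∀ i j, |A k i j - A0 i j| < η / (n + 1) := by
    rw [eventually_all]
    intro i
    rw [eventually_all]
    exact fun j => hent i j
  filter_upwards [hall] with k hk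
  refine PosSemidef.of_dotProduct_mulVec_nonneg ?_ fun x => ?_
  · have h1 : (η • (1 : Mat n)).IsHermitian := by
      rw [IsHermitian, conjTranspose_smul, conjTranspose_one]
      simp
    exact h1.add (hH k)
  · simp only [star_trivial]
    have h1 : x ⬝ᵥ (η • (1 : Mat n) + A k) *ᵥ x =
        η * (x ⬝ᵥ x) + x ⬝ᵥ A0 *ᵥ x + x ⬝ᵥ (A k - A0) *ᵥ x := by
      rw [add_mulVec, dotProduct_add, smul_mulVec, one_mulVec, dotProduct_smul, smul_eq_mul,
        sub_mulVec, dotProduct_sub]
      ring
    have h2 : 0 ≤ x ⬝ᵥ A0 *ᵥ x := by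
      have := h0.dotProduct_mulVec_nonneg x
      simpa using this
    have h3 : |x ⬝ᵥ (A k - A0) *ᵥ x| ≤ η / (n + 1) * (n * (x ⬝ᵥ x)) := by
      unfold dotProduct mulVec dotProduct
      calc |∑ i, x i * ∑ j, (A k - A0) i j * x j|
          = |∑ i, ∑ j, x i * ((A k - A0) i j * x j)| := by
            simp only [Finset.mul_sum]
        _ ≤ ∑ i, ∑ j, |x i * ((A k - A0) i j * x j)| :=
            (Finset.abs_sum_le_sum_abs _ _).trans
              (Finset.sum_le_sum fun i _ => Finset.abs_sum_le_sum_abs _ _)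
        _ ≤ ∑ i, ∑ j, η / (n + 1) * ((x i ^ 2 + x j ^ 2) / 2) := by
            refine Finset.sum_le_sum fun i _ => Finset.sum_le_sum fun j _ => ?_
            rw [abs_mul, abs_mul]
            have e1 : |(A k - A0) i j| ≤ η / (n + 1) := by
              rw [Matrix.sub_apply]; exact (hk i j).le
            have e2 : |x i| * |x j| ≤ (x i ^ 2 + x j ^ 2) / 2 := by
              have := sq_nonneg (|x i| - |x j|)
              nlinarith [sq_abs (x i), sq_abs (x j)]
            calc |x i| * (|(A k - A0) i j| * |x j|) = |(A k - A0) i j| * (|x i| * |x j|) := by ring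
              _ ≤ η / (n + 1) * ((x i ^ 2 + x j ^ 2) / 2) :=
                  mul_le_mul e1 e2 (by positivity) (by positivity)
        _ = η / (n + 1) * (n * ∑ i, x i * x i) := by
            simp only [← Finset.mul_sum]
            congr 1
            have e3 : ∀ i : Fin n, ∑ j : Fin n, (x i ^ 2 + x j ^ 2) / 2 =
                n * (x i ^ 2 / 2) + (∑ j, x j ^ 2) / 2 := by
              intro i
              have e5 : ∀ j : Fin n, (x i ^ 2 + x j ^ 2) / 2 = x i ^ 2 / 2 + x j ^ 2 / 2 :=
                fun j => by ring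
              simp only [e5]
              rw [Finset.sum_add_distrib, Finset.sum_const, Finset.card_univ, Fintype.card_fin,
                nsmul_eq_mul, Finset.sum_div]
            simp only [e3]
            rw [Finset.sum_add_distrib, ← Finset.mul_sum, Finset.sum_const, Finset.card_univ,
              Fintype.card_fin, nsmul_eq_mul, ← Finset.sum_div]
            have e4 : ∑ i, x i * x i = ∑ i, x i ^ 2 :=
              Finset.sum_congr rfl fun i _ => by ring
            rw [e4]
            ring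
    have h4 : 0 ≤ x ⬝ᵥ x := dot_nonneg x
    have h5 : η / (n + 1) * (n * (x ⬝ᵥ x)) ≤ η * (x ⬝ᵥ x) := by
      rw [div_mul_eq_mul_div, div_le_iff₀ (by positivity)]
      have : 0 ≤ η * (x ⬝ᵥ x) := by positivity
      nlinarith
    rw [h1]
    have h6 := (abs_le.1 h3).1
    linarith

/-- the smallness condition passes to the approximation -/
theorem eventually_small {C : Set (Fin n → ℝ)} {c : Fin n → ℝ} {t x0 : ℝ}
    {K : ℕ → Set (Fin n → ℝ)} {s : ℕ → ℝ} (hx0 : 0 < x0) (hs : Tendsto s atTop (𝓝 0))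
    (hcov : Tendsto (fun k => covF (nd t c K s k)) atTop
      (𝓝 (covF (limDens (t • (1 : Mat n)) c C))))
    (hP : (((x0 / 2) • (1 : Mat n)) - t • covF (limDens (t • (1 : Mat n)) c C)).PosSemidef) :
    ∀ᶠ k in atTop, (x0 • (1 : Mat n) - (t + s k) • covF (nd t c K s k)).PosSemidef := by
  have h1 : Tendsto (fun k => (x0 / 2) • (1 : Mat n) - (t + s k) • covF (nd t c K s k)) atTop
      (𝓝 ((x0 / 2) • (1 : Mat n) - t • covF (limDens (t • (1 : Mat n)) c C))) := by
    refine tendsto_const_nhds.sub ?_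
    have h2 : Tendsto (fun k => t + s k) atTop (𝓝 t) := by
      simpa using hs.const_add t
    exact h2.smul hcov
  have hH : ∀ k, ((x0 / 2) • (1 : Mat n) - (t + s k) • covF (nd t c K s k)).IsHermitian := by
    intro k
    have a1 : ((x0 / 2) • (1 : Mat n)).IsHermitian := by
      rw [IsHermitian, conjTranspose_smul, conjTranspose_one]
      simp
    have a2 : ((t + s k) • covF (nd t c K s k)).IsHermitian := by
      rw [IsHermitian, conjTranspose_smul, (covF_isHermitian _).eq]
      simp
    exact a1.sub a2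
  filter_upwards [eventually_psd h1 hH hP (half_pos hx0)] with k hk
  have e : x0 • (1 : Mat n) - (t + s k) • covF (nd t c K s k) =
      (x0 / 2) • (1 : Mat n) + ((x0 / 2) • (1 : Mat n) - (t + s k) • covF (nd t c K s k)) := by
    rw [← add_sub_assoc, ← add_smul]
    congr 2
    ring
  rw [e]
  exact hk

lemma continuous_NN (P : Mat n) : Continuous fun T : Ten n => NN P T T := by
  unfold NN N3
  fun_prop

theorem limP (h : SmallP) (n : ℕ) : LimP n := by
  intro δ hδ
  obtain ⟨x0, hx0, hS⟩ := h n δ hδ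
  refine ⟨x0 / 2, half_pos hx0, fun C c a b hA t ht hsm P hP => ?_⟩
  obtain ⟨K, s, hK1, hK2, hK3, hs, hs0, hc, hT, -⟩ := approx hA ht
  have hev := eventually_small hx0 hs0 hc hsm
  have hts : Tendsto (fun k => t + s k) atTop (𝓝 t) := by simpa using hs0.const_add t
  have l1 : Tendsto (fun k => NN P (T3 (nd t c K s k)) (T3 (nd t c K s k))) atTop
      (𝓝 (NN P (T3 (limDens (t • (1 : Mat n)) c C)) (T3 (limDens (t • (1 : Mat n)) c C)))) :=
    ((continuous_NN P).tendsto _).comp hT
  have l2 : Tendsto (fun k => 4 * (((covF (nd t c K s k) - ((2 - δ) * (t + s k)) •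
      (covF (nd t c K s k) * covF (nd t c K s k))) * P) ^ 3).trace) atTop
      (𝓝 (4 * (((covF (limDens (t • (1 : Mat n)) c C) - ((2 - δ) * t) •
        (covF (limDens (t • (1 : Mat n)) c C) * covF (limDens (t • (1 : Mat n)) c C))) * P) ^ 3).trace)) := by
    have hcont : Continuous fun p : ℝ × Mat n =>
        4 * (((p.2 - ((2 - δ) * p.1) • (p.2 * p.2)) * P) ^ 3).trace := by
      refine continuous_const.mul (Continuous.matrix_trace ?_)
      fun_prop
    have := (hcont.tendsto (t, covF (limDens (t • (1 : Mat n)) c C))).comp (hts.prodMk_nhds hc)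
    exact this
  refine le_of_tendsto_of_tendsto l1 l2 ?_
  filter_upwards [hev] with k hk
  exact hS (K k) (hK1 k) (hK2 k) (hK3 k) (s k) (s k) (hs k) (hs k) (t + s k)
    (by have := hs k; linarith) c hk P hP

theorem limZ (h : SmallZ) (n : ℕ) : LimZ n := by
  intro δ hδ
  obtain ⟨x0, hx0, hS⟩ := h n δ hδ
  refine ⟨x0 / 2, half_pos hx0, fun C c a b hA t ht hsm => ?_⟩
  obtain ⟨K, s, hK1, hK2, hK3, hs, hs0, hc, -, hD⟩ := approx hA ht
  have hev := eventually_small hx0 hs0 hc hsm
  have hts : Tendsto (fun k => t + s k) atTop (𝓝 t) := by simpa using hs0.const_add t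
  have l2 : Tendsto (fun k => (1 - δ) * (t + s k) * (covF (nd t c K s k)).trace) atTop
      (𝓝 ((1 - δ) * t * (covF (limDens (t • (1 : Mat n)) c C)).trace)) := by
    have hcont : Continuous fun p : ℝ × Mat n => (1 - δ) * p.1 * p.2.trace := by
      refine (continuous_const.mul continuous_fst).mul ?_
      exact Continuous.matrix_trace continuous_snd
    have := (hcont.tendsto (t, covF (limDens (t • (1 : Mat n)) c C))).comp (hts.prodMk_nhds hc)
    exact this
  refine le_of_tendsto_of_tendsto l2 hD ?_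
  filter_upwards [hev] with k hk
  exact hS (K k) (hK1 k) (hK2 k) (hK3 k) (s k) (s k) (hs k) (hs k) (t + s k)
    (by have := hs k; linarith) c hk

/-- **block E1** -/
theorem stmtE1 : StmtE1 := ⟨limP, limZ⟩

end Vale.Agent.P254.Eq325
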