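import Vale.Agent.P254.H657.Iface

/-!
P254 / P248, equality case, block E7 (helper325): the equality case for bodies.
-/

open MeasureTheory Set Matrix Filter Topology

namespace Vale.Agent.P254.Eq325

open R304 Eq657
open L (Mat Ten NN N3 frT Vec)

variable {n : ℕ}

/-- in the equality case `D (coneDens K) = 0` -/
theorem DD_coneDens_eq_zero (hn : 1 ≤ n) {K S : Set (Fin n → ℝ)} (hK : IsConvexBody K)
    (hS : IsSimplex S) (he : isoConst K = isoConst S) : DD (coneDens K) = 0 := by
  obtain ⟨-, h⟩ := K468.D_eq_of_isoConst_eq hn hK hS he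
  obtain ⟨a, ha, hdec⟩ := cone_decay hK.2.1
  have hg : Good (coneDens K) (Real.exp 0) a := by
    rw [coneDens_eq]
    exact good_limDens Matrix.PosSemidef.zero (isClosed_cone hK.2.1)
      (cone_interior hK.2.2) ha hdec
  rw [covF_congr coneF_ae, entF_congr coneF_ae, hg.covF_eq, hg.entF_eq (Real.exp_pos _).le] at h
  unfold DD
  linarith

/-- a cone `{x | 0 ≤ A x + v}` has `v = 0` -/
theorem cone_eq_of {K : Set (Fin n → ℝ)} (hne : K.Nonempty)
    {A : Mat (n + 1)} {v : Fin (n + 1) → ℝ} (hA : A.det ≠ 0)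
    (h : cone K = {x | ∀ i, 0 ≤ (A *ᵥ x + v) i}) : cone K = {x | ∀ i, 0 ≤ (A *ᵥ x) i} := by
  have hu : IsUnit A.det := isUnit_iff_ne_zero.2 hA
  have hcone : ∀ z ∈ cone K, ∀ t : ℝ, 0 ≤ t → t • z ∈ cone K := by
    rintro z ⟨h0, y, hy, h⟩ t ht
    refine ⟨by simpa using mul_nonneg ht h0, y, hy, ?_⟩
    have : Fin.tail (t • z) = t • Fin.tail z := by
      ext i; simp [Fin.tail]
    rw [this, h, smul_smul]
    simp
  have h0 : (0 : Fin (n + 1) → ℝ) ∈ cone K := by
    obtain ⟨y, hy⟩ := hne
    refine ⟨le_refl _, y, hy, ?_⟩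
    ext i
    simp [Fin.tail]
  have hv0 : ∀ i, 0 ≤ v i := by
    rw [h] at h0
    intro i
    have := h0 i
    simpa using this
  have hx : -(A⁻¹ *ᵥ v) ∈ cone K := by
    rw [h]
    intro i
    rw [mulVec_neg, mulVec_mulVec, mul_nonsing_inv A hu, one_mulVec]
    simp
  have hx2 := hcone _ hx 2 (by norm_num)
  have hv1 : ∀ i, v i ≤ 0 := by
    rw [h] at hx2
    intro i
    have := hx2 i
    rw [mulVec_smul, mulVec_neg, mulVec_mulVec, mul_nonsing_inv A hu, one_mulVec] at this
    simp only [Pi.add_apply, Pi.smul_apply, Pi.neg_apply, smul_eq_mul] at this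
    linarith
  have hv : v = 0 := by
    funext i
    exact le_antisymm (hv1 i) (hv0 i)
  rw [h, hv]
  simp

/-- a body whose cone is simplicial is a simplex -/
theorem isSimplex_of_cone {K : Set (Fin n → ℝ)} (hc : Convex ℝ K)
    {A : Mat (n + 1)} (hA : A.det ≠ 0)
    (h : cone K = {x | ∀ i, 0 ≤ (A *ᵥ x) i}) : IsSimplex K := by
  have hu : IsUnit A.det := isUnit_iff_ne_zero.2 hA
  set g : Fin (n + 1) → Fin (n + 1) → ℝ := fun j => A⁻¹ *ᵥ (Pi.single j 1) with hg
  have hAg : ∀ j, A *ᵥ g j = Pi.single j 1 := fun j => by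
    rw [hg]
    simp only [mulVec_mulVec, mul_nonsing_inv A hu, one_mulVec]
  have hgc : ∀ j, g j ∈ cone K := by
    intro j
    rw [h]
    intro i
    rw [hAg j]
    by_cases hij : i = j
    · subst hij; simp
    · simp [hij]
  have hg0 : ∀ j, 0 < g j 0 := by
    intro j
    obtain ⟨h1, y, hy, h2⟩ := hgc j
    rcases h1.eq_or_lt with h3 | h3
    · exfalso
      have hz : g j = 0 := by
        funext i
        refine Fin.cases h3.symm (fun k => ?_) i
        have := congrFun h2 k
        simpa [Fin.tail, ← h3] using this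
      have h4 := hAg j
      rw [hz, mulVec_zero] at h4
      have := congrFun h4 j
      simp at this
    · exact h3
  set p : Fin (n + 1) → Fin n → ℝ := fun j => (g j 0)⁻¹ • Fin.tail (g j) with hp
  have hgp : ∀ j, g j = (g j 0) • (Fin.cons 1 (p j) : Fin (n + 1) → ℝ) := by
    intro j
    funext i
    refine Fin.cases ?_ (fun k => ?_) i
    · simp
    · simp only [hp, Pi.smul_apply, Fin.cons_succ, smul_eq_mul]
      rw [mul_inv_cancel_left₀ (hg0 j).ne']
      rfl
  have hpK : ∀ j, p j ∈ K := by
    intro j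
    obtain ⟨h1, y, hy, h2⟩ := hgc j
    have : p j = y := by
      simp only [hp]
      rw [h2, smul_smul, inv_mul_cancel₀ (hg0 j).ne', one_smul]
    rw [this]
    exact hy
  -- expansion of a vector in the generators
  have hexp : ∀ x : Fin (n + 1) → ℝ, x = ∑ j, (A *ᵥ x) j • g j := by
    intro x
    have e1 : A *ᵥ x = A *ᵥ (∑ j, (A *ᵥ x) j • g j) := by
      rw [mulVec_sum]
      simp only [mulVec_smul, hAg]
      funext i
      simp [Finset.sum_apply, Pi.single_apply]
    have e2 := congrArg (fun w => A⁻¹ *ᵥ w) e1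
    simp only [mulVec_mulVec, nonsing_inv_mul A hu, one_mulVec] at e2
    exact e2
  refine ⟨p, ?_, ?_⟩
  · rw [affineIndependent_iff]
    intro s w hw0 hw1 j hj
    -- pass to a sum over the whole type
    have h1 : ∑ j ∈ s, (w j / g j 0) • g j = 0 := by
      have e1 : ∀ j, (w j / g j 0) • g j = w j • (Fin.cons 1 (p j) : Fin (n + 1) → ℝ) := by
        intro j
        conv_lhs => rw [hgp j]
        rw [smul_smul]
        congr 1
        have := (hg0 j).ne'
        simp
        field_simp
      simp only [e1]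
      funext i
      refine Fin.cases ?_ (fun k => ?_) i
      · simpa [Finset.sum_apply] using hw0
      · have := congrFun hw1 k
        simpa [Finset.sum_apply] using this
    have h2 := congrArg (fun x => (A *ᵥ x) j) h1
    simp only [mulVec_sum, mulVec_smul, hAg, mulVec_zero, Pi.zero_apply, Finset.sum_apply,
      Pi.smul_apply, smul_eq_mul, Pi.single_apply] at h2
    rw [Finset.sum_eq_single_of_mem j hj (fun b _ hb => by simp [hb.symm])] at h2
    simp only [if_true, mul_one] at h2
    exact (div_eq_zero_iff.1 h2).resolve_right (hg0 j).ne'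
  · apply Subset.antisymm
    · intro x hx
      have hz : (Fin.cons 1 x : Fin (n + 1) → ℝ) ∈ cone K := ⟨by simp, x, hx, by simp⟩
      have hz' := hz
      rw [h] at hz'
      have e1 := hexp (Fin.cons 1 x)
      set t : Fin (n + 1) → ℝ := A *ᵥ (Fin.cons 1 x : Fin (n + 1) → ℝ) with ht
      have e2 : ∑ j, t j * g j 0 = 1 := by
        have := congrFun e1 0
        simp only [Fin.cons_zero, Finset.sum_apply, Pi.smul_apply, smul_eq_mul] at this
        exact this.symm
      have e3 : x = ∑ j, (t j * g j 0) • p j := by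
        funext k
        have := congrFun e1 k.succ
        simp only [Fin.cons_succ, Finset.sum_apply, Pi.smul_apply, smul_eq_mul] at this
        rw [this, Finset.sum_apply]
        refine Finset.sum_congr rfl fun j _ => ?_
        have h5 := congrFun (hgp j) k.succ
        simp only [Pi.smul_apply, Fin.cons_succ, smul_eq_mul] at h5
        rw [h5]
        simp [mul_assoc]
      rw [e3]
      exact (convex_convexHull ℝ _).sum_mem (fun j _ => mul_nonneg (hz' j) (hg0 j).le) e2
        (fun j _ => subset_convexHull ℝ _ ⟨j, rfl⟩)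
    · refine convexHull_min ?_ hc
      rintro _ ⟨j, rfl⟩
      exact hpK j

/-- **block E7** -/
theorem stmtE7 : StmtE7 := by
  intro hEq n K S hn hK hS he
  have h1 := DD_coneDens_eq_zero hn hK hS he
  obtain ⟨a, ha, hdec⟩ := cone_decay hK.2.1
  rw [coneDens_eq] at h1
  obtain ⟨A, v, hA, hC⟩ := hEq (n + 1) (cone K) (mc n) a 0
    ⟨isClosed_cone hK.2.1, convex_cone hK.1, cone_interior hK.2.2, ha, hdec⟩ h1
  exact isSimplex_of_cone hK.1 hA (cone_eq_of (hK.2.2.mono interior_subset) hA hC)

end Vale.Agent.P254.Eq325
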